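import Mathlib

/-!
# Composition of Boolean functions: degree and level-one weight

For a balanced Boolean function `g`, the Fourier coefficients of the composition
`x ↦ f (fun j ↦ g (x (j, ·)))` factor as
`ĥ(S) = f̂(supp S) ∏_{j ∈ supp S} ĝ(S_j)`.
Hence degrees and the (signed) sum of the singleton coefficients are multiplicative, and one balanced
gadget of degree `δ` with singleton sum `> √δ` gives, by iteration, a statement of the shape of S0085.
-/

set_option autoImplicit false
set_option linter.unusedSectionVars false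

namespace Crest.Agent.Lib.BoolCompose

open Finset BigOperators

/-- The sign of a Boolean. -/
noncomputable def sg (b : Bool) : ℝ := if b then 1 else -1

@[simp] lemma sg_true : sg true = 1 := by simp [sg]
@[simp] lemma sg_false : sg false = -1 := by simp [sg]

lemma sg_mul_self (b : Bool) : sg b * sg b = 1 := by cases b <;> simp

lemma sum_sg : ∑ b : Bool, sg b = 0 := by simp

section General

variable {ι κ : Type*} [Fintype ι] [DecidableEq ι] [Fintype κ] [DecidableEq κ]

/-- Unnormalised Fourier–Walsh coefficient. -/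
noncomputable def coef (f : (ι → Bool) → Bool) (S : Finset ι) : ℝ :=
  ∑ x : ι → Bool, sg (f x) * ∏ i ∈ S, sg (x i)

/-- Unnormalised mean of the character `χ_S`. -/
noncomputable def mom (S : Finset ι) : ℝ := ∑ x : ι → Bool, ∏ i ∈ S, sg (x i)

lemma prod_mem_eq_prod_ite {α : Type*} [Fintype α] [DecidableEq α] (S : Finset α) (F : α → ℝ) :
    ∏ i ∈ S, F i = ∏ i, if i ∈ S then F i else 1 := by
  rw [Finset.prod_ite_mem, Finset.univ_inter]

lemma mom_eq_prod (S : Finset ι) :
    mom S = ∏ i : ι, ∑ b : Bool, if i ∈ S then sg b else 1 := by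
  unfold mom
  rw [Finset.prod_univ_sum, Fintype.piFinset_univ]
  refine Finset.sum_congr rfl fun x _ => ?_
  rw [prod_mem_eq_prod_ite]

lemma mom_empty : mom (∅ : Finset ι) = 2 ^ Fintype.card ι := by
  rw [mom_eq_prod]
  simp [Finset.prod_const]

lemma mom_of_nonempty {S : Finset ι} (hS : S.Nonempty) : mom S = 0 := by
  rw [mom_eq_prod]
  obtain ⟨i, hi⟩ := hS
  refine Finset.prod_eq_zero (Finset.mem_univ i) ?_
  simp [hi]

/-- The slice of `S ⊆ κ × ι` over `j`. -/
def slice (S : Finset (κ × ι)) (j : κ) : Finset ι := univ.filter fun i => (j, i) ∈ S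

/-- The indices `j` whose slice is nonempty. -/
def supp (S : Finset (κ × ι)) : Finset κ := univ.filter fun j => (slice S j).Nonempty

lemma mem_slice {S : Finset (κ × ι)} {j : κ} {i : ι} : i ∈ slice S j ↔ (j, i) ∈ S := by
  simp [slice]

lemma mem_supp {S : Finset (κ × ι)} {j : κ} : j ∈ supp S ↔ (slice S j).Nonempty := by
  simp [supp]

lemma prod_eq_prod_slice (S : Finset (κ × ι)) (F : κ × ι → ℝ) :
    ∏ p ∈ S, F p = ∏ j, ∏ i ∈ slice S j, F (j, i) := by
  rw [prod_mem_eq_prod_ite, Fintype.prod_prod_type]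
  refine Finset.prod_congr rfl fun j _ => ?_
  rw [prod_mem_eq_prod_ite (slice S j)]
  refine Finset.prod_congr rfl fun i _ => ?_
  simp only [mem_slice]

lemma card_eq_sum_slice (S : Finset (κ × ι)) : S.card = ∑ j, (slice S j).card := by
  classical
  have h : S.card = ∑ p : κ × ι, if p ∈ S then 1 else 0 := by
    rw [← Finset.card_filter]
    congr 1
    ext p; simp
  rw [h, Fintype.sum_prod_type]
  refine Finset.sum_congr rfl fun j _ => ?_
  unfold slice
  rw [Finset.card_filter]

/-- The composition `x ↦ f (fun j ↦ g (x (j, ·)))`. -/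
def comp (f : (κ → Bool) → Bool) (g : (ι → Bool) → Bool) : (κ × ι → Bool) → Bool :=
  fun x => f fun j => g fun i => x (j, i)

/-- Sum over a block variable rewritten through the values of `g`. -/
lemma sum_comp_fibre (g : (ι → Bool) → Bool) (φ : (κ → Bool) → ℝ)
    (w : κ → (ι → Bool) → ℝ) :
    ∑ y : κ → ι → Bool, φ (fun j => g (y j)) * ∏ j, w j (y j) =
      ∑ z : κ → Bool, φ z * ∏ j, ∑ y' : ι → Bool, if g y' = z j then w j y' else 0 := by
  have h : ∀ z : κ → Bool, φ z * ∏ j, ∑ y' : ι → Bool, (if g y' = z j then w j y' else 0) =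
      ∑ y : κ → ι → Bool, φ z * ∏ j, if g (y j) = z j then w j (y j) else 0 := by
    intro z
    rw [Finset.prod_univ_sum, Fintype.piFinset_univ, Finset.mul_sum]
  simp_rw [h]
  rw [Finset.sum_comm]
  refine Finset.sum_congr rfl fun y _ => ?_
  rw [Finset.sum_eq_single (fun j => g (y j))]
  · simp
  · intro z _ hz
    obtain ⟨j, hj⟩ : ∃ j, z j ≠ g (y j) := by
      by_contra hcon
      push Not at hcon
      exact hz (funext hcon)
    rw [Finset.prod_eq_zero (Finset.mem_univ j)]
    · simp
    · rw [if_neg (Ne.symm hj)]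
  · intro h; exact absurd (Finset.mem_univ _) h

lemma fibre_sum (g : (ι → Bool) → Bool) (T : Finset ι) (b : Bool) :
    (∑ y : ι → Bool, if g y = b then ∏ i ∈ T, sg (y i) else 0) =
      (mom T + sg b * coef g T) / 2 := by
  unfold mom coef
  rw [Finset.mul_sum, ← Finset.sum_add_distrib, Finset.sum_div]
  refine Finset.sum_congr rfl fun y _ => ?_
  cases hgy : g y <;> cases b <;> simp

/-- Character product for the composition, rewritten block by block. -/
lemma coef_comp_eq (f : (κ → Bool) → Bool) (g : (ι → Bool) → Bool) (S : Finset (κ × ι)) :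
    coef (comp f g) S =
      ∑ z : κ → Bool, sg (f z) * ∏ j, ((mom (slice S j) + sg (z j) * coef g (slice S j)) / 2) := by
  unfold coef
  rw [← (Equiv.curry κ ι Bool).symm.sum_comp]
  have := sum_comp_fibre (κ := κ) g (fun z => sg (f z)) (fun j y => ∏ i ∈ slice S j, sg (y i))
  simp only [fibre_sum] at this
  unfold coef at this
  rw [← this]
  refine Finset.sum_congr rfl fun y _ => ?_
  rw [prod_eq_prod_slice]
  rfl

/-- The product formula: the coefficient of a composition with a balanced function. -/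
theorem coef_comp (f : (κ → Bool) → Bool) (g : (ι → Bool) → Bool) (hg : coef g ∅ = 0)
    (S : Finset (κ × ι)) :
    coef (comp f g) S =
      (1 / 2 : ℝ) ^ Fintype.card κ * coef f (supp S) *
        ∏ j, if j ∈ supp S then coef g (slice S j) else (2 : ℝ) ^ Fintype.card ι := by
  rw [coef_comp_eq]
  unfold coef
  rw [Finset.mul_sum, Finset.sum_mul]
  refine Finset.sum_congr rfl fun z _ => ?_
  have hfac : ∀ j, (mom (slice S j) + sg (z j) * (∑ x : ι → Bool, sg (g x) * ∏ i ∈ slice S j, sg (x i))) / 2 =
      (1 / 2 : ℝ) * ((if j ∈ supp S then sg (z j) else 1) *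
        (if j ∈ supp S then coef g (slice S j) else (2 : ℝ) ^ Fintype.card ι)) := by
    intro j
    change (mom (slice S j) + sg (z j) * coef g (slice S j)) / 2 = _
    by_cases hj : j ∈ supp S
    · have hne := mem_supp.1 hj
      rw [mom_of_nonempty hne, if_pos hj, if_pos hj]
      ring
    · have he : slice S j = ∅ := by
        rw [mem_supp, Finset.not_nonempty_iff_eq_empty] at hj
        exact hj
      rw [if_neg hj, if_neg hj, he, mom_empty, hg]
      ring
  simp_rw [hfac]
  rw [Finset.prod_mul_distrib, Finset.prod_mul_distrib, Finset.prod_const, Finset.card_univ,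
    prod_mem_eq_prod_ite (supp S) (fun i => sg (z i))]
  unfold coef
  ring

end General

section Gadget

variable {ι κ : Type*} [Fintype ι] [DecidableEq ι] [Fintype κ] [DecidableEq κ]

/-- `f` is balanced, has degree at most `d` and signed singleton sum `L`. -/
structure IsGadget (f : (ι → Bool) → Bool) (d : ℕ) (L : ℝ) : Prop where
  bal : coef f ∅ = 0
  deg : ∀ S : Finset ι, d < S.card → coef f S = 0
  lev : ∑ i, coef f {i} / 2 ^ Fintype.card ι = L

lemma supp_empty : supp (∅ : Finset (κ × ι)) = ∅ := by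
  ext j; simp [mem_supp, slice]

lemma supp_singleton (j : κ) (i : ι) : supp ({(j, i)} : Finset (κ × ι)) = {j} := by
  ext j'
  rw [mem_supp, Finset.mem_singleton]
  constructor
  · rintro ⟨i', hi'⟩
    rw [mem_slice, Finset.mem_singleton, Prod.mk.injEq] at hi'
    exact hi'.1
  · rintro rfl
    exact ⟨i, by rw [mem_slice, Finset.mem_singleton]⟩

lemma slice_singleton (j : κ) (i : ι) : slice ({(j, i)} : Finset (κ × ι)) j = {i} := by
  ext i'
  rw [mem_slice, Finset.mem_singleton, Finset.mem_singleton, Prod.mk.injEq]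
  simp

lemma gadget_comp_single (f : (κ → Bool) → Bool) (g : (ι → Bool) → Bool) (hg : coef g ∅ = 0)
    (j : κ) (i : ι) :
    coef (comp f g) {(j, i)} / 2 ^ Fintype.card (κ × ι) =
      (coef f {j} / 2 ^ Fintype.card κ) * (coef g {i} / 2 ^ Fintype.card ι) := by
  rw [coef_comp _ _ hg, supp_singleton]
  have hprod : (∏ j', if j' ∈ ({j} : Finset κ) then coef g (slice {(j, i)} j')
        else (2 : ℝ) ^ Fintype.card ι) =
      coef g {i} * ((2 : ℝ) ^ Fintype.card ι) ^ (Fintype.card κ - 1) := by
    rw [← Finset.mul_prod_erase Finset.univ _ (Finset.mem_univ j)]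
    rw [if_pos (Finset.mem_singleton_self j), slice_singleton]
    congr 1
    rw [Finset.prod_congr rfl (g := fun _ => (2 : ℝ) ^ Fintype.card ι)]
    · rw [Finset.prod_const, Finset.card_erase_of_mem (Finset.mem_univ j), Finset.card_univ]
    · intro j' hj'
      rw [if_neg]
      rw [Finset.mem_singleton]
      exact Finset.ne_of_mem_erase hj'
  rw [hprod, Fintype.card_prod]
  have hm : 1 ≤ Fintype.card κ := Fintype.card_pos_iff.2 ⟨j⟩
  obtain ⟨m, hm'⟩ : ∃ m, Fintype.card κ = m + 1 := ⟨Fintype.card κ - 1, by omega⟩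
  rw [hm']
  simp only [Nat.add_sub_cancel]
  have h2 : ((2 : ℝ) ^ Fintype.card ι) ≠ 0 := by positivity
  have h3 : (2 : ℝ) ^ ((m + 1) * Fintype.card ι) = ((2 : ℝ) ^ Fintype.card ι) ^ m * (2 : ℝ) ^ Fintype.card ι := by
    rw [add_mul, one_mul, pow_add, pow_mul']
  rw [h3, one_div, inv_pow]
  field_simp

/-- Composition multiplies degrees and singleton sums. -/
theorem IsGadget.comp {f : (κ → Bool) → Bool} {g : (ι → Bool) → Bool} {d e : ℕ} {L M : ℝ}
    (hf : IsGadget f d L) (hg : IsGadget g e M) : IsGadget (comp f g) (d * e) (L * M) where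
  bal := by
    rw [coef_comp _ _ hg.bal, supp_empty, hf.bal]
    ring
  deg := by
    intro S hS
    rw [coef_comp _ _ hg.bal]
    by_cases hs : d < (supp S).card
    · rw [hf.deg _ hs]; ring
    · push Not at hs
      have : ∃ j ∈ supp S, e < (slice S j).card := by
        by_contra hcon
        push Not at hcon
        have h1 : S.card = ∑ j ∈ supp S, (slice S j).card := by
          rw [card_eq_sum_slice]
          symm
          apply Finset.sum_subset (Finset.subset_univ _)
          intro j _ hj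
          rw [mem_supp, Finset.not_nonempty_iff_eq_empty] at hj
          rw [hj, Finset.card_empty]
        have h2 : ∑ j ∈ supp S, (slice S j).card ≤ (supp S).card * e := by
          simpa using Finset.sum_le_card_nsmul _ _ _ hcon
        have h3 : (supp S).card * e ≤ d * e := Nat.mul_le_mul_right e hs
        omega
      obtain ⟨j, hj, hje⟩ := this
      rw [Finset.prod_eq_zero (Finset.mem_univ j)]
      · ring
      · rw [if_pos hj, hg.deg _ hje]
  lev := by
    rw [Fintype.sum_prod_type]
    simp_rw [gadget_comp_single f g hg.bal, ← Finset.mul_sum, ← Finset.sum_mul]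
    rw [hg.lev, hf.lev]

/-- Reindexing a gadget. -/
theorem IsGadget.reindex {ι' : Type*} [Fintype ι'] [DecidableEq ι'] {f : (ι → Bool) → Bool}
    {d : ℕ} {L : ℝ} (hf : IsGadget f d L) (e : ι ≃ ι') :
    IsGadget (fun x : ι' → Bool => f (fun i => x (e i))) d L := by
  have hc : ∀ S : Finset ι', coef (fun x : ι' → Bool => f (fun i => x (e i))) S =
      coef f (S.map e.symm.toEmbedding) := by
    intro S
    unfold coef
    rw [← (Equiv.arrowCongr e (Equiv.refl Bool)).sum_comp]
    refine Finset.sum_congr rfl fun x _ => ?_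
    simp [Equiv.arrowCongr]
  refine ⟨?_, ?_, ?_⟩
  · rw [hc]; simpa using hf.bal
  · intro S hS
    rw [hc]
    exact hf.deg _ (by simpa using hS)
  · rw [← hf.lev, Fintype.card_congr e]
    rw [← e.sum_comp]
    refine Finset.sum_congr rfl fun i _ => ?_
    rw [hc]
    simp

/-- Iterating a gadget on `Fin`. -/
theorem exists_iterate {m : ℕ} {f : (Fin m → Bool) → Bool} {d : ℕ} {L : ℝ}
    (hf : IsGadget f d L) (k : ℕ) :
    ∃ n : ℕ, ∃ F : (Fin n → Bool) → Bool, IsGadget F (d ^ (k + 1)) (L ^ (k + 1)) := by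
  induction k with
  | zero => exact ⟨m, f, by simpa using hf⟩
  | succ k ih =>
    obtain ⟨n, F, hF⟩ := ih
    have := (hF.comp hf).reindex finProdFinEquiv
    rw [show d ^ (k + 1) * d = d ^ (k + 1 + 1) from (pow_succ _ _).symm,
      show L ^ (k + 1) * L = L ^ (k + 1 + 1) from (pow_succ _ _).symm] at this
    exact ⟨n * m, _, this⟩

/-- A balanced function is not constant. -/
lemma exists_ne_of_bal {ι : Type*} [Fintype ι] [DecidableEq ι] {f : (ι → Bool) → Bool}
    (h : coef f ∅ = 0) : ∃ x y, f x ≠ f y := by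
  by_contra hcon
  push Not at hcon
  have hc : ∀ x, f x = f (fun _ => true) := fun x => hcon _ _
  unfold coef at h
  simp only [Finset.prod_empty, mul_one] at h
  simp_rw [hc] at h
  rw [Finset.sum_const, Finset.card_univ, nsmul_eq_mul] at h
  have hne : ((Fintype.card (ι → Bool) : ℕ) : ℝ) ≠ 0 := by
    exact_mod_cast Fintype.card_ne_zero
  rcases mul_eq_zero.1 h with h | h
  · exact hne h
  · cases hb : f (fun _ => true) <;> rw [hb] at h <;> simp at h

/-- The S0085-shaped conclusion from one gadget. -/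
theorem main_of_gadget {m : ℕ} {f : (Fin m → Bool) → Bool} {δ : ℕ} {L : ℝ}
    (hf : IsGadget f δ L) (hδ : 0 < δ) (hL : Real.sqrt δ < L) (C : ℝ) :
    ∃ n : ℕ, ∃ f : (Fin n → Bool) → Bool, ∃ d : ℕ,
      (∃ x y, f x ≠ f y) ∧
      (∀ S : Finset (Fin n), d < S.card →
        ∑ x : Fin n → Bool, ((if f x then (1 : ℝ) else -1) * ∏ i ∈ S, (if x i then (1 : ℝ) else -1)) = 0) ∧
      C * Real.sqrt d <
        ∑ i : Fin n, (∑ x : Fin n → Bool, ((if f x then (1 : ℝ) else -1) * (if x i then (1 : ℝ) else -1))) / 2 ^ n := by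
  have hs : 0 < Real.sqrt δ := Real.sqrt_pos.2 (by exact_mod_cast hδ)
  have hr : 1 < L / Real.sqrt δ := (one_lt_div hs).2 hL
  obtain ⟨k, hk⟩ := pow_unbounded_of_one_lt C hr
  have hk1 : C < (L / Real.sqrt δ) ^ (k + 1) := by
    calc C < (L / Real.sqrt δ) ^ k := hk
      _ ≤ (L / Real.sqrt δ) ^ (k + 1) := pow_le_pow_right₀ hr.le (Nat.le_succ k)
  obtain ⟨n, F, hF⟩ := exists_iterate hf k
  refine ⟨n, F, δ ^ (k + 1), exists_ne_of_bal hF.bal, ?_, ?_⟩
  · intro S hS
    have := hF.deg S hS
    simpa [coef, sg] using this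
  · have hlev := hF.lev
    simp only [coef, sg, Fintype.card_fin, Finset.prod_singleton] at hlev
    rw [hlev]
    have hsq : Real.sqrt ((δ ^ (k + 1) : ℕ) : ℝ) = Real.sqrt δ ^ (k + 1) := by
      rw [Nat.cast_pow, Real.sqrt_eq_iff_mul_self_eq_of_pos (by positivity)]
      rw [← mul_pow, Real.mul_self_sqrt (by positivity)]
    rw [hsq]
    rw [div_pow, lt_div_iff₀ (by positivity)] at hk1
    exact hk1

end Gadget

end Crest.Agent.Lib.BoolCompose
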