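/-!
Fast evaluation in the kernel of the local check of a strategy certificate for the Snaky game.

The certificate is stored as big numerals in a binary tree.  All functions here are written with the
primitive operations on `Nat` that the kernel computes with big number arithmetic, and with the recursors
directly.  Errors are numbers: a node is fine when its number of errors is zero.

A record has 512 bits: the stones `M` (bits 0 to 224), the number `d` of stones (225 to 229), the zone `Z`
(230 to 454), the move `m` (455 to 462, 255 for a finished position), the default child (463 to 482) or, for a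
finished position, the copy of Snaky as an orientation (463 to 465) and a position (466 to 473), the first
reply (483 to 503) and the number of replies (504 to 511).
-/

set_option autoImplicit false

namespace Crest.Agent.Lib.SnakyFast

local macro "M225!" : term => `(nat_lit 0x1FFFFFFFFFFFFFFFFFFFFFFFFFFFFFFFFFFFFFFFFFFFFFFFFFFFFFFFF)
local macro "M230!" : term => `(nat_lit 0x3FFFFFFFFFFFFFFFFFFFFFFFFFFFFFFFFFFFFFFFFFFFFFFFFFFFFFFFFF)
local macro "F455!" : term => `(nat_lit 0x7FFFFFFFFFFFFFFFFFFFFFFFFFFFFFFFFFFFFFFFFFFFFFFFFFFFFFFFFFFFFFFFFFFFFFFFFFFFFFFFFFFFFFFFFFFFFFFFFFFFFFFFFFFFFFFFFF)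
local macro "ZMASK!" : term => `(nat_lit 0x7FFFFFFFFFFFFFFFFFFFFFFFFFFFFFFFFFFFFFFFFFFFFFFFFFFFFFFFC000000000000000000000000000000000000000000000000000000000)
local macro "TOP!" : term => `(nat_lit 0x4000000000000000000000000000000000000000000000000000000000)
local macro "TWO!" : term => `(nat_lit 0x4000000000000000000000000000000000000000000000000000000001)
local macro "LIM!" : term => `(nat_lit 0x29FFFFFFFFFFFFFFFFFFFFFFFFFFFFFFFFFFFFFFFFFFFFFFFFFFFFFFFF)
local macro "P225!" : term => `(nat_lit 0x200000000000000000000000000000000000000000000000000000000)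
local macro "M70!" : term => `(nat_lit 0x3FFFFFFFFFFFFFFFFF)
local macro "M65!" : term => `(nat_lit 0x1FFFFFFFFFFFFFFFF)
local macro "TABLE!" : term => `(nat_lit 0x688001000200060005400000000000F0003684000800100060009400000000000780186840018002000400094000000000001801E688001800100020005400000000000C000F)

/-- A binary tree of chunks of the certificate. -/
inductive NT where
  | leaf (n : Nat)
  | node (l r : NT)

noncomputable section

/-- The chunk at a path, least significant bit first. -/
def NT.get (t : NT) : Nat → Nat :=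
  NT.rec (motive := fun _ => Nat → Nat) (fun n _ => n)
    (fun _ _ ihl ihr i =>
      Bool.rec (ihl (Nat.shiftRight i (nat_lit 1))) (ihr (Nat.shiftRight i (nat_lit 1)))
        (Nat.beq (Nat.land i (nat_lit 1)) (nat_lit 1))) t

/-- Apply `f` to the number `n`, brought to normal form. -/
def force {α : Type} (f : Nat → α) (n : Nat) : α :=
  Nat.rec (f (nat_lit 0)) (fun m _ => f (Nat.succ m)) n

/-- the bits of the record at index `c`: `64` records of `512` bits in a chunk -/
def rawAt (T : NT) (c : Nat) : Nat :=
  Nat.shiftRight (force (NT.get T) (Nat.shiftRight c (nat_lit 6)))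
    (Nat.shiftLeft (Nat.land c (nat_lit 63)) (nat_lit 9))

/-- the bits of the table of replies from index `s` on: `256` entries of `32` bits in a chunk -/
def repAt (R : NT) (s : Nat) : Nat :=
  Nat.shiftRight (force (NT.get R) (Nat.shiftRight s (nat_lit 8)))
    (Nat.shiftLeft (Nat.land s (nat_lit 255)) (nat_lit 5))

/-- The explicit replies, `count` and `e`, the bits of the table: errors of the children,
and the cells of `W` which are not listed. -/
def goE (T : NT) (cnt Md C : Nat) : Nat → Nat → Nat → Nat :=
  Nat.rec (fun _ W => W) (fun _ ih e W =>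
    Nat.lor (Nat.sub (Nat.succ (Nat.land (Nat.shiftRight e (nat_lit 8)) (nat_lit 0xFFFFFF))) cnt)
      (Nat.lor
        (Nat.land (Nat.xor (rawAt T (Nat.land (Nat.shiftRight e (nat_lit 8)) (nat_lit 0xFFFFFF))) Md)
          (Nat.lor C (Nat.shiftLeft TOP! (Nat.land e (nat_lit 255)))))
        (ih (Nat.shiftRight e (nat_lit 32))
          (Nat.xor W (Nat.land W (Nat.shiftLeft TOP! (Nat.land e (nat_lit 255))))))))

/-- Errors of a non-terminal node, part 3 -/
def nt3E (T R : NT) (cnt x Md C c0 y0 : Nat) : Nat :=
  Nat.lor (Nat.sub (Nat.succ c0) cnt)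
    (Nat.lor (Nat.land (Nat.xor y0 Md) C)
      (goE T cnt Md C (Nat.land (Nat.shiftRight x (nat_lit 504)) (nat_lit 255))
        (repAt R (Nat.land (Nat.shiftRight x (nat_lit 483)) (nat_lit 0x1FFFFF)))
        (Nat.land y0 ZMASK!)))

/-- Errors of a non-terminal node, part 2 -/
def nt2E (T R : NT) (cnt x K m Md Zi : Nat) : Nat :=
  Nat.lor (Nat.sub Md LIM!)
    (Nat.lor (Nat.xor (Nat.land (Nat.shiftRight K m) TWO!) TOP!)
      (nt3E T R cnt x (Nat.add (Nat.lor Md (Nat.shiftLeft (nat_lit 1) m)) P225!)
        (Nat.xor F455! Zi)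
        (Nat.land (Nat.shiftRight x (nat_lit 463)) (nat_lit 0xFFFFF))
        (rawAt T (Nat.land (Nat.shiftRight x (nat_lit 463)) (nat_lit 0xFFFFF)))))

/-- Errors of a non-terminal node -/
def ntE (T R : NT) (cnt x K m : Nat) : Nat :=
  nt2E T R cnt x K m (Nat.land K M230!) (Nat.land K ZMASK!)

/-- Errors of a terminal node, part 2 -/
def term2E (x ent pos : Nat) : Nat :=
  Nat.lor
    (Nat.land (Nat.xor (Nat.land x M225!) (Nat.shiftLeft (Nat.land ent M65!) pos))
      (Nat.shiftLeft (Nat.land ent M65!) pos))
    (Nat.sub (Nat.mod pos (nat_lit 15)) (Nat.shiftRight ent (nat_lit 65)))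

/-- Errors of a terminal node -/
def termE (x : Nat) : Nat :=
  term2E x
    (Nat.land (Nat.shiftRight TABLE! (Nat.mul (Nat.land (Nat.shiftRight x (nat_lit 463)) (nat_lit 7)) (nat_lit 70))) M70!)
    (Nat.land (Nat.shiftRight x (nat_lit 466)) (nat_lit 255))

/-- Errors of the node with bits `x`, `m` its field at position 455 -/
def nodeE (T R : NT) (cnt x m : Nat) : Nat :=
  Bool.rec (ntE T R cnt x (Nat.land x F455!) m) (termE x) (Nat.beq m (nat_lit 255))

/-- Errors of the node with bits `x` -/
def okE (T R : NT) (cnt x : Nat) : Nat :=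
  nodeE T R cnt x (Nat.land (Nat.shiftRight x (nat_lit 455)) (nat_lit 255))

/-- errors of the nodes with index `lo + k`, `k < 2^d`, and `< cnt`, by binary splitting. -/
def rangeE (T R : NT) (cnt : Nat) : Nat → Nat → Nat :=
  Nat.rec
    (fun lo => Bool.rec (nat_lit 0) (okE T R cnt (rawAt T lo)) (Nat.ble (Nat.succ lo) cnt))
    (fun d ih lo => Nat.lor (ih lo) (ih (Nat.add lo (Nat.shiftLeft (nat_lit 1) d))))

end

end Crest.Agent.Lib.SnakyFast
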